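import Vale.Agent.P354CB74.Func
import Vale.Agent.P354CB26.Side
import Vale.Agent.P354CB78.Symm
import Vale.Agent.P354CB62.Base

/-!
The facts on common developments.
-/

namespace Vale.Agent.P354CB74

open Vale.Agent.P354CB

theorem l3 (Z : L0) (hG : P354YC.GU) : L3 :=
  ⟨func Z, max Z, P354CB26.side Z, P354CB26.trans Z, P354CB78.symm Z (P354CB26.side Z),
    P354CB62.base hG Z⟩

end Vale.Agent.P354CB74
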