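import Vale.Agent.P354CB74.L3
import Vale.Agent.P354CB24.B0
import Vale.Agent.P354CB44.Corner
import Vale.Agent.P354CB13.B0c
import Vale.Agent.P354CB28.Nball
import Vale.Agent.P354CB19.Pu
import Vale.Agent.P354CB92.Chain
import Vale.Agent.P354CB69.Extf
import Vale.Agent.P354CB55.Gone
import Vale.Agent.P354CB47.Lim
import Vale.Agent.P354CB50.Ord
import Vale.Agent.P354CB41.Hull
import Vale.Agent.P354CB72.Ac
import Vale.Agent.P354CB59.Lk1
import Vale.Agent.P354CB15.Lk2
import Vale.Agent.P354CB97.Lk3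
import Vale.Agent.P354CB75.Key0
import Vale.Agent.P354CB29.Ka1
import Vale.Agent.P354CB49.Ka2
import Vale.Agent.P354CB45.Kt
import Vale.Agent.P354CB45.Kt2
import Vale.Agent.P354CB48.Kh
import Vale.Agent.P354CB44.Kj
import Vale.Agent.P354CB49.Kr
import Vale.Agent.P354CB46.Ks1
import Vale.Agent.P354CB71.Ks2
import Vale.Agent.P354CB78.Ks
import Vale.Agent.P354CB41.Key
import Vale.Agent.P354CB35.Gl1
import Vale.Agent.P354CB73.Gl2
import Vale.Agent.P354CB55.Js
import Vale.Agent.P354CB17.Step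
import Vale.Agent.P354CB47.Run
import Vale.Agent.P354CB59.Sat
import Vale.Agent.P354CB63.Ld1
import Vale.Agent.P354CB97.Ld2
import Vale.Agent.P354CB40.Mg

/-!
Existence and uniqueness of the maximal development, from local existence and uniqueness.
-/

namespace Vale.Agent.P354CB74

open Vale.Agent.P354CB

theorem l1 : L1 :=
  have B := P354CB24.b0
  have C := P354CB44.corner B
  have O := P354CB13.opn B C
  have H := P354CB92.chain B C
  ⟨B, C, O, P354CB28.nball, P354CB19.pu B C O P354CB28.nball, H, P354CB69.extf B O H⟩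

theorem l2 : L2 :=
  have G := P354CB55.gone l1
  have M := P354CB47.lim l1 G
  have O := P354CB50.ord l1 G M
  ⟨G, M, O, P354CB41.hull l1 G O, P354CB72.ac l1 G⟩

theorem l0 : L0 := ⟨l1, l2, P354CB59.lk1, P354CB15.lk2, P354CB97.lk3⟩

theorem key (hG : P354YC.GU) : KEY :=
  P354CB41.key l0 (l3 l0 hG) (P354CB75.key0 l0 (P354CB75.ka0 l0) (P354CB29.ka1 l0)
    (P354CB49.ka2 l0) P354CB45.kt P354CB45.kt2 (P354CB48.kh l1.b) (P354CB44.kj l1.b l0.k3)
    (P354CB78.ks l0.k1 hG (P354CB46.ks1 l0.k3 P354CB49.kr) P354CB71.ks2))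

theorem mg (hG : P354YC.GU) (hL : P354XV.LOC) : MG :=
  have T := l3 l0 hG
  P354CB40.mg l0 T (P354CB63.ld1 hL) P354CB97.ld2
    (P354CB59.sat l0 T (P354CB17.step T) (P354CB47.run T (P354CB55.js l0.k3) (key hG)))
    (P354CB35.gl1 l0 T (key hG)) (P354CB73.gl2 l0 T)

theorem uq (hG : P354YC.GU) : UQ := P354CB40.uq l0 (l3 l0 hG)

end Vale.Agent.P354CB74
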