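import Vale.Agent.P354CB.Ez

/-!
Common developments agree, and there is a largest one.
-/

open Set Filter Topology

namespace Vale.Agent.P354CB74

open Vale.Agent.P354n
open Vale.Agent.P354I (X Dat)
open Vale.Agent.P354CB

theorem func (Z : L0) : FUNC := by
  intro d hd A B U ψ U' ψ' h h' x hx
  have H := h.hull.inter h'.hull
  have sA := A.h.gh.st
  have sB := B.h.gh.st
  obtain ⟨_, ⟨y, hy, rfl⟩, C, CU, Cp, xC, yC⟩ :=
    (Z.l2.g3 A.N A.S (Z.l2.ac d A.O A.N A.j hd A.h)).con _ H x hx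
  have lm : ∀ x ∈ U ∩ U', LM ψ x ∧ LM ψ' x := fun x k => ⟨h.lm x k.1, h'.lm x k.2⟩
  obtain ⟨e, he⟩ := A.N.cover (A.j y)
  have n := H.op.mem_nhds (CU yC)
  refine Z.k2.rig sA sB H.op lm CU Cp yC (Z.k2.jet sA sB (A.h.cont hy) he (A.h.ind y hy e he).1
    (hd.2 y (A.h.nz hy)).1 (A.h.ind y hy e he).2 (mem_of_superset n lm) ?_) xC
  filter_upwards [A.h.op.mem_nhds hy, A.h.cont hy n] with z z1 z2
  exact (h.sl z z1 z2.1).2.trans (h'.sl z z1 z2.2).2.symm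

theorem max_of (K : LK1) (F : FUNC) : MAX := by
  classical
  intro d hd A B
  let ψ : A.N.pt → B.N.pt := fun x => if k : ∃ x', Rel A B x x' then k.choose else B.j 0
  have e : ∀ U φ, Com A B U φ → ∀ x ∈ U, ψ x = φ x := fun U φ h x hx => by
    have k : ∃ x', Rel A B x x' := ⟨_, U, φ, h, hx, rfl⟩
    obtain ⟨V, χ, h', hx', e⟩ := k.choose_spec
    rw [show ψ x = k.choose from dif_pos k, ← e]
    exact F d hd A B V χ U φ h' h ⟨hx', hx⟩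
  refine ⟨{x | ∃ x', Rel A B x x'}, ψ, ⟨⟨isOpen_iff_mem_nhds.2 ?_, ?_, ?_⟩, ?_, ?_⟩, fun x x' =>
    ⟨fun k => ⟨⟨x', k⟩, ?_⟩, ?_⟩⟩
  · rintro x ⟨_, U, φ, h, hx, -⟩
    exact mem_of_superset (h.hull.op.mem_nhds hx) fun z hz => ⟨_, U, φ, h, hz, rfl⟩
  · rintro x ⟨_, U, φ, h, hx, -⟩ w l n
    exact ⟨_, U, φ, h, h.hull.dn x hx w l n, rfl⟩
  · rintro x ⟨_, U, φ, h, hx, -⟩ w l n
    exact ⟨_, U, φ, h, h.hull.up x hx w l n, rfl⟩
  · rintro x ⟨_, U, φ, h, hx, -⟩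
    exact K.congr (h.lm x hx) (mem_of_superset (h.hull.op.mem_nhds hx) (e U φ h))
  · rintro y hy ⟨_, U, φ, h, hx, -⟩
    exact ⟨(h.sl y hy hx).1, (e U φ h _ hx).trans (h.sl y hy hx).2⟩
  · obtain ⟨U, φ, h, hx, rfl⟩ := k
    exact e U φ h x hx
  · rintro ⟨⟨_, U, φ, h, hx, -⟩, rfl⟩
    exact ⟨U, φ, h, hx, (e U φ h x hx).symm⟩

theorem max (Z : L0) : MAX := max_of Z.k1 (func Z)

end Vale.Agent.P354CB74
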